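import Vale.Agent.P144P.PlaneC
import Vale.Agent.P144Y.Jind
import Vale.Agent.P144D.Dom.Convex
import Vale.Agent.P144E.Ge5.B
import Vale.Agent.P144C.Rect
import Vale.Agent.P144B.All

namespace Vale.Agent.Results.P144.AAAAAll

open Filter Topology Vale.Agent.P144 Vale.Agent.P144Z Vale.Agent.P144C Vale.Agent.P144B

theorem result : ∃ κ : ℝ → ℝ → ℝ, (∀ K < 1, ∀ α > 0, 0 < κ K α) ∧
    (∀ D, IsC1 D ∨ IsPC1 D ∨ IsPolygon D ∨ IsOpen D ∧ Bornology.IsBounded D ∧ Convex ℝ D →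
      ∃ K₀ < 1, ∀ K < 1, K₀ ≤ K → MixK K (1 - K) (κ K (1 - K)) D) ∧ ∀ J > 0,
    ∃ (C : Pts → ℝ) (CD : Set ℂ → Option (ℝ → Config) → Pts → ℝ),
    (∃ E₀, PlaneFam J 0 (fun _ => 0) (Kc / J) E₀) ∧
    (∀ p, Good Set.univ p → (∀ E₀, PlaneFam J 0 (fun _ => 0) (Kc / J) E₀ → Lim E₀ p (C p)) ∧
      (∀ j, C { p with j := j } = C p) ∧ (p.m = 0 → Even p.n → 0 < C p)) ∧
    (∀ D b, P144Y.Nice D b → ∀ p, Good D p → Lim (crit J D b) p (CD D b p) ∧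
      (∀ j, CD D b { p with j := j } = CD D b p) ∧
      (p.m = 0 → (b = none ∧ Even p.n ∨ b = some fun _ _ => true) → 0 < CD D b p)) ∧
    ∀ K < 1, ∀ V, IsPotential V → ∃ lam₀ > 0,
      ∃ β Zσ Zε : ℝ → ℝ, AnalyticOnNhd ℝ β (Set.Ioo (-lam₀) lam₀) ∧
      AnalyticOnNhd ℝ Zσ (Set.Ioo (-lam₀) lam₀) ∧ AnalyticOnNhd ℝ Zε (Set.Ioo (-lam₀) lam₀) ∧
      β 0 = Kc / J ∧ Zσ 0 = 1 ∧ Zε 0 = 1 ∧ ∀ lam : ℝ, |lam| < lam₀ →
        0 < β lam ∧ 0 < Zσ lam ∧ 0 < Zε lam ∧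
        (∃ μ, IsPlaneState J lam V (β lam) μ ∧ IsTorusState J lam V (β lam) μ ∧
          (∀ p, Good Set.univ p → Lim (famOf μ) p (Zσ lam ^ p.n * Zε lam ^ p.m * C p)) ∧
          ∀ E₀, PlaneFam J 0 (fun _ => 0) (Kc / J) E₀ →
            LocDiff Set.univ E₀ (famOf μ) (Zσ lam) (Zε lam)) ∧
        ∀ D b, ((IsC1 D ∨ IsPC1 D ∨ IsPolygon D ∨
              IsOpen D ∧ Bornology.IsBounded D ∧ Convex ℝ D) ∧
              (StdBC b ∨ SignBC D b ∨ ∀ k > 0, SignL (Two k) D b) ∨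
            (IsLip K D ∨ MixK K (1 - K) (κ K (1 - K)) D) ∧
              (StdBC b ∨ SignL (fun _ => True) D b) ∨
            (∃ α > 0, TameK α (κ K α) D ∧ (SignK α (κ K α) D b ∨ SignL (Two (κ K α)) D b)) ∨
            ∃ x > 0, ∃ y > 0, D = rect x y ∧ b = some (bcOf {w | w.re * y < w.im * x})) →
          LocDiff D (crit J D b) (inDom J lam V (β lam) D b) (Zσ lam) (Zε lam) ∧
            Identity D (crit J D b) (inDom J lam V (β lam) D b) (Zσ lam) (Zε lam) ∧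
            (P144Y.Nice D b → ∀ p, Good D p →
              Lim (inDom J lam V (β lam) D b) p (Zσ lam ^ p.n * Zε lam ^ p.m * CD D b p)) := by
  choose κ hκ h using fun K : {K : ℝ // K < 1} => domM K.2
  have tm : ∀ D, IsC1 D ∨ IsPC1 D ∨ IsPolygon D ∨ IsOpen D ∧ Bornology.IsBounded D ∧ Convex ℝ D →
      ∃ α > 0, TameW α D := by
    rintro D (hD | hD | hD | ⟨o, bd, cv⟩)
    · exact ⟨1, one_pos, TameW.of_tame ((tame_of_C1 hD).mono one_le_two)⟩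
    · exact tameW_of_PC1 hD
    · exact tameW_of_PC1 hD.isPC1
    · exact (tame_of_convex o bd cv).imp fun _ h => ⟨h.1, TameW.of_tame h.2⟩
  refine ⟨fun K => if hK : K < 1 then κ ⟨K, hK⟩ else fun _ => 1,
    fun K hK α hα => by simpa only [dif_pos hK] using hκ ⟨K, hK⟩ α hα, fun D hD => ?_,
    fun J hJ => ?_⟩
  · obtain ⟨α, hα, hD⟩ := tm D hD
    obtain ⟨α', hα', h⟩ := tameK_of (b := none) hα hD (Or.inl rfl)
    refine ⟨1 - α', by linarith, fun K hK hK' => ?_⟩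
    simp only [dif_pos hK]
    obtain ⟨⟨o, bd, c⟩, -⟩ := h _ (hκ ⟨K, hK⟩ (1 - K) (by linarith))
    exact MixK.mono ⟨o, bd, fun z => Or.inl (c z)⟩ (by linarith)
  obtain ⟨C, hC⟩ := P144P.plane_C hJ
  have hE : ∃ E₀, PlaneFam J 0 (fun _ => 0) (Kc / J) E₀ := by
    obtain ⟨μ, hμ, -⟩ := H436.free_plane hJ
    exact ⟨fun _ F => ∫ σ, F σ ∂μ, fun _ => μ, fun _ _ => hμ, fun _ _ => rfl⟩
  have hCD : ∀ D b, P144Y.Nice D b → ∀ p, Good D p →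
      Lim (crit J D b) p (Classical.epsilon (Lim (crit J D b) p)) :=
    fun D b h p hp => Classical.epsilon_spec (h.allLim hJ p hp)
  refine ⟨C, fun D b p => Classical.epsilon (Lim (crit J D b) p), hE,
    fun p hp => ⟨(hC p hp).1, (hC p hp).2.1, (hC p hp).2.2.1⟩, fun D b hN p hp =>
      ⟨hCD D b hN p hp, fun j => tendsto_nhds_unique (hCD D b hN { p with j := j } hp)
        (hN.jind hJ hp (hCD D b hN p hp) j), fun hm hb => hN.pos hJ hp hm (hCD D b hN p hp) hb⟩,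
    fun K hK V hV => ?_⟩
  simp only [dif_pos hK]
  replace hκ := hκ ⟨K, hK⟩
  obtain ⟨lam₀, h0, β, Zσ, Zε, a1, a2, a3, a4, a5, a6, h⟩ := h ⟨K, hK⟩ J hJ V hV
  refine ⟨lam₀, h0, β, Zσ, Zε, a1, a2, a3, a4, a5, a6, fun lam hl => ?_⟩
  obtain ⟨h1, h2, h3, ⟨μ, m1, m2, m3⟩, h7⟩ := h lam hl
  obtain ⟨E₀, hE⟩ := hE
  refine ⟨h1, h2, h3, ⟨μ, m1, m2, fun p hp => (m3 E₀ hE).2 p hp _ ((hC p hp).1 E₀ hE),
    fun E h => (m3 E h).1⟩, fun D b hD => ?_⟩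
  suffices H : LocDiff D (crit J D b) (inDom J lam V (β lam) D b) (Zσ lam) (Zε lam) ∧
      Identity D (crit J D b) (inDom J lam V (β lam) D b) (Zσ lam) (Zε lam) from
    ⟨H.1, H.2, fun hN p hp => H.2 p hp _ (hCD D b hN p hp)⟩
  have two : ∀ D b, (IsC1 D ∨ IsPC1 D ∨ IsPolygon D ∨
      IsOpen D ∧ Bornology.IsBounded D ∧ Convex ℝ D) → (∀ k > 0, SignL (Two k) D b) →
      LocDiff D (crit J D b) (inDom J lam V (β lam) D b) (Zσ lam) (Zε lam) ∧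
        Identity D (crit J D b) (inDom J lam V (β lam) D b) (Zσ lam) (Zε lam) := by
    intro D b hD hb
    obtain ⟨α, hα, hD⟩ := tm D hD
    obtain ⟨α', hα', h⟩ := tameK_of (b := none) hα hD (Or.inl rfl)
    exact h7 α' hα' D b (Or.inr (Or.inl ⟨(h _ (hκ α' hα')).1, hb _ (hκ α' hα')⟩))
  have sl : ∀ c : Bool, SignL (fun _ => True) D (some fun _ _ => c) := by
    rintro (_ | _)
    · exact ⟨∅, fun z _ => ⟨1, one_pos, Or.inr (Or.inl (by simp))⟩, by rw [bcOf_empty]⟩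
    · exact ⟨Set.univ, fun z _ => ⟨1, one_pos, Or.inl (by simp)⟩, by rw [bcOf_univ]⟩
  rcases hD with ⟨hD, hb⟩ | ⟨hD | hD, hb⟩ | ⟨α, hα, hD, hb | hb⟩ | ⟨x, hx, y, hy, rfl, rfl⟩
  · rcases or_assoc.2 hb with hb | hb
    · obtain ⟨α, hα, hD⟩ := tm D hD
      obtain ⟨α', hα', h⟩ := tameK_of hα hD (hb.elim (fun h => h.signBC D) id)
      exact h7 α' hα' D b (Or.inl ⟨Or.inl (h _ (hκ α' hα')).1, (h _ (hκ α' hα')).2⟩)
    · exact two D b hD hb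
  · rcases hb with hb | hb
    · exact h7 1 one_pos D b (Or.inl ⟨Or.inr hD, hb.signK _ _ D⟩)
    · exact h7 1 one_pos D b (Or.inr (Or.inr (Or.inl ⟨hD, hb⟩)))
  · refine h7 1 one_pos D b (Or.inr (Or.inr (Or.inr ⟨hD, ?_⟩)))
    rcases hb with (rfl | rfl | rfl) | hb
    exacts [Or.inl rfl, Or.inr (sl _), Or.inr (sl _), Or.inr hb]
  · exact h7 α hα D b (Or.inl ⟨Or.inl hD, hb⟩)
  · exact h7 α hα D b (Or.inr (Or.inl ⟨hD, hb⟩))
  · exact two _ _ (Or.inr (Or.inr (Or.inr ⟨rect_open x y, rect_bdd x y, rect_convex x y⟩)))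
      fun k hk => ⟨_, rect_pwl hx hy hk.le, rfl⟩

end Vale.Agent.Results.P144.AAAAAll
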