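import Vale.Agent.P144P.PlaneC
import Vale.Agent.P144D.Dom.Convex
import Vale.Agent.P144A.Dom
import Vale.Agent.P144E.Ge5.B

namespace Vale.Agent.Results.P144.AAAAExist

open Filter Topology Vale.Agent.P144 Vale.Agent.P144Z

theorem result : ∃ κ : ℝ → ℝ, (∀ α > 0, 0 < κ α) ∧ ∀ J > 0, ∃ C : Pts → ℝ,
    (∃ E₀, PlaneFam J 0 (fun _ => 0) (Kc / J) E₀) ∧
    (∀ p, Good Set.univ p → (∀ E₀, PlaneFam J 0 (fun _ => 0) (Kc / J) E₀ → Lim E₀ p (C p)) ∧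
      (∀ j, C { p with j := j } = C p) ∧ (p.m = 0 → Even p.n → 0 < C p)) ∧
    ∀ V, IsPotential V → ∃ lam₀ > 0,
      ∃ β Zσ Zε : ℝ → ℝ, AnalyticOnNhd ℝ β (Set.Ioo (-lam₀) lam₀) ∧
      AnalyticOnNhd ℝ Zσ (Set.Ioo (-lam₀) lam₀) ∧ AnalyticOnNhd ℝ Zε (Set.Ioo (-lam₀) lam₀) ∧
      β 0 = Kc / J ∧ Zσ 0 = 1 ∧ Zε 0 = 1 ∧ ∀ lam : ℝ, |lam| < lam₀ →
        0 < β lam ∧ 0 < Zσ lam ∧ 0 < Zε lam ∧
        (∃ μ, IsPlaneState J lam V (β lam) μ ∧ IsTorusState J lam V (β lam) μ ∧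
          (∀ p, Good Set.univ p → Lim (famOf μ) p (Zσ lam ^ p.n * Zε lam ^ p.m * C p)) ∧
          ∀ E₀, PlaneFam J 0 (fun _ => 0) (Kc / J) E₀ →
            LocDiff Set.univ E₀ (famOf μ) (Zσ lam) (Zε lam)) ∧
        ∀ D b, ((IsC1 D ∨ IsPC1 D ∨ IsPolygon D ∨
              IsOpen D ∧ Bornology.IsBounded D ∧ Convex ℝ D) ∧ (StdBC b ∨ SignBC D b) ∨
            IsLip (κ 1) D ∧ StdBC b ∨ ∃ α > 0, TameK α (κ α) D ∧ SignK α (κ α) D b) →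
          LocDiff D (crit J D b) (inDom J lam V (β lam) D b) (Zσ lam) (Zε lam) ∧
            Identity D (crit J D b) (inDom J lam V (β lam) D b) (Zσ lam) (Zε lam) := by
  obtain ⟨κ, hκ, h⟩ := AN.domA
  refine ⟨κ, hκ, fun J hJ => ?_⟩
  obtain ⟨C, hC⟩ := P144P.plane_C hJ
  have hE : ∃ E₀, PlaneFam J 0 (fun _ => 0) (Kc / J) E₀ := by
    obtain ⟨μ, hμ, -⟩ := H436.free_plane hJ
    exact ⟨fun _ F => ∫ σ, F σ ∂μ, fun _ => μ, fun _ _ => hμ, fun _ _ => rfl⟩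
  refine ⟨C, hE, fun p hp => ⟨(hC p hp).1, (hC p hp).2.1, (hC p hp).2.2.1⟩, fun V hV => ?_⟩
  obtain ⟨lam₀, h0, β, Zσ, Zε, a1, a2, a3, a4, a5, a6, h⟩ := h J hJ V hV
  refine ⟨lam₀, h0, β, Zσ, Zε, a1, a2, a3, a4, a5, a6, fun lam hl => ?_⟩
  obtain ⟨h1, h2, h3, ⟨μ, m1, m2, m3⟩, h7⟩ := h lam hl
  obtain ⟨E₀, hE⟩ := hE
  refine ⟨h1, h2, h3, ⟨μ, m1, m2, fun p hp => (m3 E₀ hE).2 p hp _ ((hC p hp).1 E₀ hE),
    fun E h => (m3 E h).1⟩, fun D b hD => ?_⟩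
  rcases hD with ⟨hD, hb⟩ | ⟨hD, hb⟩ | ⟨α, hα, hD, hb⟩
  · obtain ⟨α, hα, hD⟩ : ∃ α > 0, TameW α D := by
      rcases hD with hD | hD | hD | ⟨o, bd, cv⟩
      · exact ⟨1, one_pos, TameW.of_tame ((tame_of_C1 hD).mono one_le_two)⟩
      · exact tameW_of_PC1 hD
      · exact tameW_of_PC1 hD.isPC1
      · exact (tame_of_convex o bd cv).imp fun _ h => ⟨h.1, TameW.of_tame h.2⟩
    obtain ⟨α', hα', h⟩ := tameK_of hα hD (hb.elim (fun h => h.signBC D) id)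
    exact h7 α' hα' D b (h _ (hκ α' hα')).1 (h _ (hκ α' hα')).2
  · exact h7 1 one_pos D b (hD.tameK (hκ 1 one_pos).le) (hb.signK _ _ D)
  · exact h7 α hα D b hD hb

end Vale.Agent.Results.P144.AAAAExist
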